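import Vale.Agent.P243.H344.Final
import Vale.Agent.P243.LB.All

namespace Vale.Agent.Results.P243.BothBounds

open Vale.Agent.P243.Plain Vale.Agent.P243.H344

/-- Bang's half-area inequality is false (1), already for the regular tetrahedron and with a
definite gap (2). In the other direction, the known lower bound `1 / 3` for the directionwise
relative area is not sharp: it can be improved to `1 / 3 + δ` with one `δ > 0` for all convex
bodies and all coverings (3). For coverings by cylinders whose axes are all parallel to one plane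
the half-area inequality is true, with the optimal constant `1 / 2` (4), and the directionwise
relative form is true for at most two axis directions (5); equality holds in (4) and (5) for the
regular tetrahedron (6). In terms of the two constants: `1 / 3 < r3 ≤ 5 / 12` and
`1 / 3 < c3 ≤ 1 / 2 - 1 / 5000` (7). -/
theorem result :
    -- (1)
    (∃ K, IsConvexBody K ∧ ∃ C : CylinderCovering K,
      (∀ i, IsCompact (C.base i) ∧ Convex ℝ (C.base i)) ∧
      C.totalArea < 1 / 2 * Amin K ∧ C.relArea < 1 / 2) ∧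
    -- (2)
    (IsConvexBody regularTetrahedron ∧ ∃ C : CylinderCovering regularTetrahedron,
      (∀ i, IsCompact (C.base i) ∧ Convex ℝ (C.base i)) ∧
      C.totalArea ≤ (1 / 2 - 1 / 5000) * Amin regularTetrahedron ∧
      C.relArea ≤ 1 / 2 - 1 / 5000) ∧
    -- (3)
    (∃ δ : ℝ, 0 < δ ∧ ∀ K, IsConvexBody K → ∀ C : CylinderCovering K,
      1 / 3 + δ ≤ C.relArea ∧ (1 / 3 + δ) * Amin K ≤ C.totalArea) ∧
    -- (4)
    (∀ K, IsConvexBody K → ∀ C : CylinderCovering K, CoplanarAxes C →
      1 / 2 * Amin K ≤ C.totalArea) ∧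
    -- (5)
    (∀ K, IsConvexBody K → ∀ C : CylinderCovering K, AtMostTwoAxes C → 1 / 2 ≤ C.relArea) ∧
    -- (6)
    (∃ C : CylinderCovering regularTetrahedron,
      (∀ i, IsCompact (C.base i) ∧ Convex ℝ (C.base i)) ∧ CoplanarAxes C ∧ AtMostTwoAxes C ∧
      C.totalArea = 1 / 2 * Amin regularTetrahedron ∧ C.relArea = 1 / 2) ∧
    -- (7)
    1 / 3 < r3 ∧ r3 ≤ 5 / 12 ∧ 1 / 3 < c3 ∧ c3 ≤ 1 / 2 - 1 / 5000 := by
  obtain ⟨δ, hδ, h3, hr, hc⟩ := Vale.Agent.P243.LB.lower
  refine ⟨?_, ⟨isConvexBody_regularTetrahedron, exists_covering_regularTetrahedron⟩,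
    ⟨δ, hδ, h3⟩, fun K hK C h => half_area hK C h, fun K hK C h => rel_half hK C h,
    exists_extremal, by linarith,
    Vale.Agent.P243.Bridge.r3_le Vale.Agent.P243.isConvexBody_K0
      Vale.Agent.P243.exists_covering_K0, by linarith, c3_le⟩
  obtain ⟨C, hb, h1, h2⟩ := exists_covering_regularTetrahedron
  exact ⟨_, isConvexBody_regularTetrahedron, C, hb,
    lt_of_le_of_lt h1 (mul_lt_mul_of_pos_right (by norm_num) Amin_regularTetrahedron_pos),
    lt_of_le_of_lt h2 (by norm_num)⟩

end Vale.Agent.Results.P243.BothBounds
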