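import Vale.Agent.P243.H344.Final

namespace Vale.Agent.Results.P243.CoplanarSharp

open Vale.Agent.P243.Plain Vale.Agent.P243.H344

/-- Bang's half-area inequality is false (1), already for the regular tetrahedron and with a
definite gap (2); nevertheless it is true, with the optimal constant `1 / 2`, for every convex body
and every covering by cylinders whose axes are all parallel to one plane (3), and the stronger
directionwise relative form is true for every covering whose cylinders have at most two axis
directions (4). Equality holds in (3) and (4) for the regular tetrahedron (5). -/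
theorem result :
    -- (1)
    (∃ K, IsConvexBody K ∧ ∃ C : CylinderCovering K,
      (∀ i, IsCompact (C.base i) ∧ Convex ℝ (C.base i)) ∧
      C.totalArea < 1 / 2 * Amin K ∧ C.relArea < 1 / 2) ∧
    -- (2)
    (IsConvexBody regularTetrahedron ∧ ∃ C : CylinderCovering regularTetrahedron,
      (∀ i, IsCompact (C.base i) ∧ Convex ℝ (C.base i)) ∧
      C.totalArea ≤ (1 / 2 - 1 / 5000) * Amin regularTetrahedron ∧
      C.relArea ≤ 1 / 2 - 1 / 5000) ∧
    -- (3)
    (∀ K, IsConvexBody K → ∀ C : CylinderCovering K, CoplanarAxes C →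
      1 / 2 * Amin K ≤ C.totalArea) ∧
    -- (4)
    (∀ K, IsConvexBody K → ∀ C : CylinderCovering K, AtMostTwoAxes C → 1 / 2 ≤ C.relArea) ∧
    -- (5)
    (∃ C : CylinderCovering regularTetrahedron,
      (∀ i, IsCompact (C.base i) ∧ Convex ℝ (C.base i)) ∧ CoplanarAxes C ∧ AtMostTwoAxes C ∧
      C.totalArea = 1 / 2 * Amin regularTetrahedron ∧ C.relArea = 1 / 2) ∧
    -- (6)
    c3 ≤ 1 / 2 - 1 / 5000 ∧ r3 ≤ 5 / 12 := by
  refine ⟨?_, ⟨isConvexBody_regularTetrahedron, exists_covering_regularTetrahedron⟩,
    fun K hK C h => half_area hK C h, fun K hK C h => rel_half hK C h, exists_extremal, c3_le,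
    Vale.Agent.P243.Bridge.r3_le Vale.Agent.P243.isConvexBody_K0
      Vale.Agent.P243.exists_covering_K0⟩
  obtain ⟨C, hb, h1, h2⟩ := exists_covering_regularTetrahedron
  exact ⟨_, isConvexBody_regularTetrahedron, C, hb,
    lt_of_le_of_lt h1 (mul_lt_mul_of_pos_right (by norm_num) Amin_regularTetrahedron_pos),
    lt_of_le_of_lt h2 (by norm_num)⟩

end Vale.Agent.Results.P243.CoplanarSharp
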