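import Vale.Agent.P243.Bdl.B1
import Vale.Agent.P243.H324.Mono
import Vale.Agent.P243.H324.BlockD

namespace Vale.Agent.Results.P243.EveryDimension

open Filter Topology Vale.Agent.P243

/-- Bang's half-area inequality is false in dimension three, and false in every dimension
`n = d + 1 ≥ 3`; the best constants `c d`, `r d` of dimension `d + 1` do not increase with the
dimension and tend to zero, `c (2 m) ≤ binom (2 m) m / 4 ^ m`. -/
theorem result :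
    ((∃ K, Plain.IsConvexBody K ∧ ∃ C : Plain.CylinderCovering K,
        (∀ i, IsCompact (C.base i) ∧ Convex ℝ (C.base i)) ∧
        C.totalArea < 1 / 2 * Plain.Amin K ∧ C.relArea < 1 / 2) ∧
      Plain.c3 ≤ 1 / 2 - 2 / 1000000 ∧ Plain.r3 ≤ 5 / 12) ∧
    (EveryDim.c 2 = Plain.c3 ∧ EveryDim.r 2 = Plain.r3) ∧
    (∀ d : ℕ, 2 ≤ d → ∃ K : Set (Fin (d + 1) → ℝ), EveryDim.IsConvexBody K ∧
      ∃ C : EveryDim.CylinderCovering K,
        (∀ i, IsCompact (C.base i) ∧ Convex ℝ (C.base i)) ∧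
        C.totalArea < 1 / 2 * EveryDim.Amin K ∧ C.relArea < 1 / 2) ∧
    (∀ d : ℕ, 1 ≤ d → EveryDim.c (d + 1) ≤ EveryDim.c d ∧ EveryDim.r (d + 1) ≤ EveryDim.r d) ∧
    (∀ d : ℕ, 2 ≤ d → EveryDim.c d ≤ 1 / 2 - 2 / 1000000 ∧ EveryDim.r d ≤ 5 / 12) ∧
    (∀ m : ℕ, 1 ≤ m → EveryDim.c (2 * m) ≤ (Nat.choose (2 * m) m : ℝ) / 4 ^ m ∧
      EveryDim.r (2 * m) ≤ (Nat.choose (2 * m) m : ℝ) / 4 ^ m) ∧
    (∀ d : ℕ, 2 ≤ d → EveryDim.c d ≤ 1 / Real.sqrt d ∧ EveryDim.r d ≤ 1 / Real.sqrt d) ∧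
    (∀ t : ℝ, 0 < t → ∃ d₀ : ℕ, ∀ d : ℕ, d₀ ≤ d →
      ∃ K : Set (Fin (d + 1) → ℝ), EveryDim.IsConvexBody K ∧
        ∃ C : EveryDim.CylinderCovering K,
          (∀ i, IsCompact (C.base i) ∧ Convex ℝ (C.base i)) ∧
          C.totalArea < t * EveryDim.Amin K ∧ C.relArea < t) ∧
    Tendsto EveryDim.c atTop (𝓝 0) ∧ Tendsto EveryDim.r atTop (𝓝 0) := by
  have hold : (∃ K, Plain.IsConvexBody K ∧ ∃ C : Plain.CylinderCovering K,
        (∀ i, IsCompact (C.base i) ∧ Convex ℝ (C.base i)) ∧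
        C.totalArea < 1 / 2 * Plain.Amin K ∧ C.relArea < 1 / 2) ∧
      Plain.c3 ≤ 1 / 2 - 2 / 1000000 ∧ Plain.r3 ≤ 5 / 12 := by
    obtain ⟨C, hC, hb⟩ := exists_small_covering_convex
    obtain ⟨⟨K, hK, C', hb', hA, h1, h2⟩, h3⟩ := Bridge.full_transfer
      isConvexBody_tetra hC hb Amin_tetra_ge (by norm_num)
    refine ⟨⟨K, hK, C', hb', lt_of_le_of_lt h1 ?_, lt_of_le_of_lt h2 (by norm_num)⟩,
      h3.trans (by norm_num), Bridge.r3_le isConvexBody_K0 exists_covering_K0⟩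
    exact mul_lt_mul_of_pos_right (by norm_num) hA
  have hrel : ∀ {d : ℕ} {t : ℝ}, EveryDim.Good d t → ∃ K : Set (Fin (d + 1) → ℝ),
      EveryDim.IsConvexBody K ∧ ∃ C : EveryDim.CylinderCovering K,
        (∀ i, IsCompact (C.base i) ∧ Convex ℝ (C.base i)) ∧
        C.totalArea < t * EveryDim.Amin K ∧ C.relArea < t := by
    rintro d t ⟨K, hK, C, hb, hC⟩
    refine ⟨K, hK, C, hb, hC, lt_of_le_of_lt (C.relArea_le hK) ?_⟩
    rw [div_lt_iff₀ (EveryDim.Amin_pos hK)]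
    exact hC
  have h2 : EveryDim.Good 2 (1 / 2) := by
    obtain ⟨⟨K, hK, C, hb, hC, -⟩, -, -⟩ := hold
    obtain ⟨hK', hA, C', hC', -, hb'⟩ := EveryDim.transfer_two hK C hb
    refine ⟨K, hK', C', hb', ?_⟩
    rw [hC', hA]
    exact hC
  have hmono : ∀ d : ℕ, 2 ≤ d → EveryDim.c d ≤ EveryDim.c 2 ∧ EveryDim.r d ≤ EveryDim.r 2 := by
    intro d hd
    induction hd with
    | refl => exact ⟨le_refl _, le_refl _⟩
    | step _ ih => exact ⟨(EveryDim.c_succ_le _).trans ih.1, (EveryDim.r_succ_le _).trans ih.2⟩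
  refine ⟨hold, ⟨EveryDim.c_two_eq, EveryDim.r_two_eq⟩, fun d hd => hrel (EveryDim.good_mono hd h2),
    fun d _ => ⟨EveryDim.c_succ_le d, EveryDim.r_succ_le d⟩, fun d hd => ⟨?_, ?_⟩,
    fun m hm => ⟨EveryDim.c_join_le hm, EveryDim.r_join_le hm⟩,
    fun d hd => ⟨EveryDim.c_le_sqrt hd, EveryDim.r_le_sqrt hd⟩, fun t ht => ?_,
    EveryDim.tendsto_c, EveryDim.tendsto_r⟩
  · exact (hmono d hd).1.trans (EveryDim.c_two_eq.le.trans hold.2.1)
  · exact (hmono d hd).2.trans (EveryDim.r_two_eq.le.trans hold.2.2)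
  · obtain ⟨d₀, hd₀⟩ := eventually_atTop.1
      (EveryDim.tendsto_one_div_sqrt.eventually (gt_mem_nhds ht))
    exact ⟨max d₀ 2, fun d hd => hrel (EveryDim.good_sqrt (le_of_max_le_right hd)
      (hd₀ d (le_of_max_le_left hd)))⟩

end Vale.Agent.Results.P243.EveryDimension
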